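import Mathlib
import Vale.Agent.Lib.P302.helper14.Defs
import Vale.Agent.Lib.P302.helper14.Reduce
import Vale.Agent.Lib.P302.helper14.Bridge

/-!
# P302: checking an explicit packing

`packOK l L a m` checks that the list `a` (the bin of each item, by position) is a packing of the
items with integer sizes `l` into `m` bins of capacity `L`; then the rational instance
`ratInst l L` is packable into `m` bins.
-/

namespace Vale.Agent.Lib.P302.helper4

open Finset Vale.Agent.Lib.P302.helper14

/-- The total size of the items (sizes in the first list) that the assignment (second list, the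
bin of each item by position) puts into bin `b`. -/
def binLoad : List ℕ → List ℕ → ℕ → ℕ
  | s :: ss, x :: xs, b => (if x = b then s else 0) + binLoad ss xs b
  | _, _, _ => 0

/-- Boolean check that `a` (the bin of each item, by position) is a packing of the items `l`
into `m` bins of capacity `L`. -/
def packOK (l : List ℕ) (L : ℕ) (a : List ℕ) (m : ℕ) : Bool :=
  Nat.beq a.length l.length && a.all (fun x => Nat.blt x m) &&
    (List.range m).all (fun b => Nat.ble (binLoad l a b) L)

theorem sum_binLoad_range (l : List ℕ) : ∀ (a : List ℕ) (b : ℕ), a.length = l.length →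
    ∑ i ∈ Finset.range l.length, (if a.getD i 0 = b then l.getD i 0 else 0) = binLoad l a b := by
  induction l with
  | nil =>
    intro a b _
    cases a <;> simp [binLoad]
  | cons s ss ih =>
    intro a b h
    cases a with
    | nil => simp at h
    | cons x xs =>
      have h' : xs.length = ss.length := by simpa using h
      rw [List.length_cons, Finset.sum_range_succ']
      simp only [List.getD_cons_succ, List.getD_cons_zero]
      rw [ih xs b h', binLoad, add_comm]

theorem packOK_sound {l : List ℕ} {L : ℕ} {a : List ℕ} {m : ℕ} (h : packOK l L a m = true) :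
    PackableNat l L m := by
  classical
  unfold packOK at h
  rw [Bool.and_eq_true, Bool.and_eq_true] at h
  obtain ⟨⟨h1, h2⟩, h3⟩ := h
  have hlen : a.length = l.length := Nat.eq_of_beq_eq_true h1
  have hlt : ∀ i, i < l.length → a.getD i 0 < m := by
    intro i hi
    have hi' : i < a.length := hlen ▸ hi
    rw [List.getD_eq_getElem _ _ hi']
    have h4 := List.all_eq_true.mp h2 _ (List.getElem_mem hi')
    exact Nat.blt_eq.mp h4
  refine ⟨fun i => ⟨a.getD i.val 0, hlt i.val i.isLt⟩, fun b => ?_⟩
  rw [Finset.sum_filter]
  have e : ∀ i : Fin l.length,
      (if (⟨a.getD i.val 0, hlt i.val i.isLt⟩ : Fin m) = b then l.get i else 0)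
        = (if a.getD i.val 0 = b.val then l.getD i.val 0 else 0) := by
    intro i
    have h5 : l.get i = l.getD i.val 0 := by
      rw [List.getD_eq_getElem _ _ i.isLt]
      rfl
    simp only [Fin.ext_iff, h5]
  rw [Finset.sum_congr rfl (fun i _ => e i),
    Fin.sum_univ_eq_sum_range (fun i => if a.getD i 0 = b.val then l.getD i 0 else 0) l.length,
    sum_binLoad_range l a b.val hlen]
  exact Nat.le_of_ble_eq_true (List.all_eq_true.mp h3 b.val (List.mem_range.mpr b.isLt))

theorem packable_of_packableNat {l : List ℕ} {L m : ℕ} (hL : 0 < L)
    (h : PackableNat l L m) : Packable (ratInst l L) m := by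
  classical
  obtain ⟨g, hg⟩ := h
  have hlen : (ratInst l L).length = l.length := List.length_map _
  refine ⟨fun j => g (Fin.cast hlen j), fun b => ?_⟩
  have hL' : (0 : ℚ) < L := by exact_mod_cast hL
  have key : ∑ i ∈ univ.filter (fun i : Fin l.length => g i = b), ((l.get i : ℕ) : ℚ) / L
      = ∑ j ∈ univ.filter (fun j : Fin (ratInst l L).length => g (Fin.cast hlen j) = b),
          (ratInst l L).get j := by
    apply Finset.sum_equiv (finCongr hlen.symm)
    · intro i
      simp
    · intro i _
      simp [ratInst]
      rfl
  rw [← key, ← Finset.sum_div, div_le_one hL']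
  exact_mod_cast hg b

/-- An explicit packing, checked by `packOK`, shows that the rational instance is packable. -/
theorem packable_of_packOK {l : List ℕ} {L : ℕ} {a : List ℕ} {m : ℕ} (hL : 0 < L)
    (h : packOK l L a m = true) : Packable (ratInst l L) m :=
  packable_of_packableNat hL (packOK_sound h)

end Vale.Agent.Lib.P302.helper4
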