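import Mathlib
import Vale.Agent.Lib.P302.helper14.Defs
import Vale.Agent.Lib.P302.helper14.Bridge

namespace Vale.Agent.Lib.P302.helper4

open Finset Vale.Agent.Lib.P302.helper14

/-- Packability written with sums over all positions and an arbitrary presentation `g` of the
items on `Fin n`, `n = I.length`. -/
theorem packable_iff {I : List ℚ} {n : ℕ} (hn : I.length = n) (g : Fin n → ℚ)
    (hg : ∀ i : Fin n, g i = I.get (Fin.cast hn.symm i)) (k : ℕ) :
    Packable I k ↔
      ∃ f : Fin n → Fin k, ∀ b : Fin k, ∑ i, (if f i = b then g i else 0) ≤ 1 := by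
  subst hn
  have hgI : g = I.get := funext (fun i => by simpa using hg i)
  subst hgI
  unfold Packable
  simp only [Finset.sum_filter]

/-- The items of `I ++ [1]` as a function on `Fin (I.length + 1)`. -/
def padFun (I : List ℚ) : Fin (I.length + 1) → ℚ := Fin.snoc (fun i => I.get i) 1

theorem padFun_spec (I : List ℚ) (i : Fin (I.length + 1)) :
    padFun I i = (I ++ [1]).get (Fin.cast (by simp) i) := by
  refine Fin.lastCases ?_ (fun j => ?_) i
  · simp [padFun]
  · simp [padFun, List.getElem_append_left]

theorem packable_pad_iff (I : List ℚ) (k : ℕ) :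
    Packable (I ++ [1]) k ↔
      ∃ f : Fin (I.length + 1) → Fin k, ∀ b : Fin k,
        ∑ i, (if f i = b then padFun I i else 0) ≤ 1 :=
  packable_iff (by simp) (padFun I) (padFun_spec I) k

theorem packable_self_iff (I : List ℚ) (k : ℕ) :
    Packable I k ↔
      ∃ f : Fin I.length → Fin k, ∀ b : Fin k, ∑ i, (if f i = b then I.get i else 0) ≤ 1 :=
  packable_iff rfl I.get (fun _ => rfl) k

/-- Adding an item of size `1` costs at most one more bin. -/
theorem packable_pad {I : List ℚ} {k : ℕ} (h : Packable I k) : Packable (I ++ [1]) (k + 1) := by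
  classical
  rw [packable_pad_iff]
  obtain ⟨f, hf⟩ := (packable_self_iff I k).mp h
  refine ⟨Fin.snoc (fun i => (f i).castSucc) (Fin.last k), fun b => ?_⟩
  rw [Fin.sum_univ_castSucc]
  simp only [Fin.snoc_castSucc, Fin.snoc_last, padFun]
  refine Fin.lastCases ?_ (fun b' => ?_) b
  · have h0 : ∀ i : Fin I.length, (if (f i).castSucc = Fin.last k then I.get i else 0) = 0 := by
      intro i
      rw [if_neg (Fin.castSucc_ne_last _)]
    simp
  · have h1 : ∀ i : Fin I.length,
        (if (f i).castSucc = b'.castSucc then I.get i else 0) = (if f i = b' then I.get i else 0) := by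
      intro i
      simp [Fin.castSucc_inj]
    have h2 : Fin.last k ≠ b'.castSucc := (Fin.castSucc_ne_last b').symm
    simp only [h1, if_neg h2, add_zero]
    exact hf b'

/-- Removing an item of size `1` saves a bin: the bin holding it holds nothing else. -/
theorem packable_of_pad {I : List ℚ} (hI : IsInstance I) {k : ℕ}
    (h : Packable (I ++ [1]) (k + 1)) : Packable I k := by
  classical
  rw [packable_pad_iff] at h
  obtain ⟨f, hf⟩ := h
  rw [packable_self_iff]
  set b0 := f (Fin.last I.length) with hb0
  have hpos : ∀ i : Fin I.length, 0 < I.get i := fun i => (hI _ (List.get_mem I i)).1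
  have hsplit : ∀ b : Fin (k + 1),
      ∑ i, (if f i = b then padFun I i else 0)
        = ∑ i : Fin I.length, (if f i.castSucc = b then I.get i else 0)
          + (if b0 = b then 1 else 0) := by
    intro b
    rw [Fin.sum_univ_castSucc]
    simp [padFun, hb0]
  have hne : ∀ i : Fin I.length, f i.castSucc ≠ b0 := by
    intro i hi
    have h1 := hf b0
    rw [hsplit b0] at h1
    have h2 : I.get i ≤ ∑ j : Fin I.length, (if f j.castSucc = b0 then I.get j else 0) := by
      have h3 : (if f i.castSucc = b0 then I.get i else 0)
          ≤ ∑ j : Fin I.length, (if f j.castSucc = b0 then I.get j else 0) :=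
        Finset.single_le_sum (f := fun j : Fin I.length => if f j.castSucc = b0 then I.get j else 0)
          (fun j _ => by
            show 0 ≤ (if f j.castSucc = b0 then I.get j else 0)
            split_ifs
            · exact (hpos j).le
            · exact le_rfl) (Finset.mem_univ i)
      rwa [if_pos hi] at h3
    have h4 := hpos i
    simp only [if_true] at h1
    linarith
  choose g hg using fun i : Fin I.length => Fin.exists_succAbove_eq (hne i)
  refine ⟨g, fun c => ?_⟩
  have h1 := hf (b0.succAbove c)
  rw [hsplit] at h1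
  have h2 : b0 ≠ b0.succAbove c := (Fin.succAbove_ne b0 c).symm
  rw [if_neg h2, add_zero] at h1
  have h3 : ∀ i : Fin I.length,
      (if g i = c then I.get i else 0) = (if f i.castSucc = b0.succAbove c then I.get i else 0) := by
    intro i
    have : g i = c ↔ f i.castSucc = b0.succAbove c := by
      rw [← hg i]
      exact Fin.succAbove_right_inj.symm
    simp only [this]
  simp only [h3]
  exact h1

theorem not_packable_pad_zero (I : List ℚ) : ¬ Packable (I ++ [1]) 0 := by
  rintro ⟨f, -⟩
  exact (f ⟨I.length, by simp⟩).elim0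

theorem isInstance_pad {I : List ℚ} (hI : IsInstance I) : IsInstance (I ++ [1]) := by
  intro a ha
  rcases List.mem_append.mp ha with h | h
  · exact hI a h
  · have : a = 1 := by simpa using h
    subst this
    exact ⟨one_pos, le_rfl⟩

/-- Adding an item of size `1` raises `OPT` by exactly one. -/
theorem opt_pad {I : List ℚ} (hI : IsInstance I) : OPT (I ++ [1]) = OPT I + 1 := by
  have hmem : OPT I ∈ {k | Packable I k} := Nat.sInf_mem ⟨_, packable_self hI⟩
  apply le_antisymm
  · exact Nat.sInf_le (packable_pad hmem)
  · show OPT I + 1 ≤ sInf {k | Packable (I ++ [1]) k}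
    refine le_csInf ⟨_, packable_pad hmem⟩ (fun k hk => ?_)
    have hk' : Packable (I ++ [1]) k := hk
    clear hk
    rcases k with _ | k
    · exact absurd hk' (not_packable_pad_zero I)
    · have : OPT I ≤ k := Nat.sInf_le (packable_of_pad hI hk')
      omega

theorem fracSol_value_nonneg {I : List ℚ} {z : List (Multiset ℚ × ℚ)} (hz : IsFracSol I z) :
    (0 : ℚ) ≤ (z.map Prod.snd).sum := by
  apply List.sum_nonneg
  intro x hx
  obtain ⟨p, hp, rfl⟩ := List.mem_map.mp hx
  exact (hz.1 p hp).2

theorem fracSol_pad {I : List ℚ} {z : List (Multiset ℚ × ℚ)} (hz : IsFracSol I z) :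
    IsFracSol (I ++ [1]) (z ++ [(({1} : Multiset ℚ), (1 : ℚ))]) := by
  constructor
  · intro p hp
    rcases List.mem_append.mp hp with h | h
    · obtain ⟨⟨h1, h2⟩, h3⟩ := hz.1 p h
      exact ⟨⟨fun σ hσ => List.mem_append_left _ (h1 σ hσ), h2⟩, h3⟩
    · have : p = (({1} : Multiset ℚ), (1 : ℚ)) := by simpa using h
      subst this
      refine ⟨⟨fun σ hσ => ?_, by simp⟩, zero_le_one⟩
      have : σ = 1 := by simpa using hσ
      subst this
      simp
  · intro σ hσ
    have hcov : ((I.count σ : ℕ) : ℚ) ≤ (z.map fun p => (p.1.count σ : ℚ) * p.2).sum := by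
      by_cases hσI : σ ∈ I
      · exact hz.2 σ hσI
      · rw [List.count_eq_zero_of_not_mem hσI]
        simp only [Nat.cast_zero]
        apply List.sum_nonneg
        intro x hx
        obtain ⟨p, hp, rfl⟩ := List.mem_map.mp hx
        exact mul_nonneg (Nat.cast_nonneg _) (hz.1 p hp).2
    rw [List.count_append, List.map_append, List.sum_append]
    push_cast
    have hlast : (([1] : List ℚ).count σ : ℚ)
        = ([(({1} : Multiset ℚ), (1 : ℚ))].map fun p => (p.1.count σ : ℚ) * p.2).sum := by
      by_cases h1 : σ = 1
      · subst h1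
        simp
      · have h1' : ¬ (1 : ℚ) = σ := fun h => h1 h.symm
        simp [h1, h1']
    rw [hlast]
    linarith

/-- Adding an item of size `1` raises `LP` by at most one. -/
theorem lp_pad {I : List ℚ} (hI : IsInstance I) : LP (I ++ [1]) ≤ LP I + 1 := by
  have hne : {v : ℝ | ∃ z : List (Multiset ℚ × ℚ), IsFracSol I z
      ∧ v = (((z.map Prod.snd).sum : ℚ) : ℝ)}.Nonempty := by
    refine ⟨_, I.map (fun a => (({a} : Multiset ℚ), (1 : ℚ))), ⟨?_, ?_⟩, rfl⟩
    · intro p hp
      obtain ⟨a, ha, rfl⟩ := List.mem_map.mp hp
      refine ⟨⟨fun σ hσ => ?_, by simpa using (hI a ha).2⟩, zero_le_one⟩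
      have : σ = a := by simpa using hσ
      subst this
      exact ha
    · intro σ hσ
      have : (I.map (fun a => (({a} : Multiset ℚ), (1 : ℚ)))).map
          (fun p => (p.1.count σ : ℚ) * p.2) = I.map (fun a => if a = σ then (1 : ℚ) else 0) := by
        rw [List.map_map]
        apply List.map_congr_left
        intro a _
        by_cases h : a = σ
        · subst h
          simp
        · have h' : ¬ σ = a := fun e => h e.symm
          simp [h, h']
      rw [this]
      clear this hσ
      induction I with
      | nil => simp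
      | cons a I ih =>
        have hI' : IsInstance I := fun b hb => hI b (List.mem_cons_of_mem _ hb)
        have := ih hI'
        by_cases h : a = σ
        · subst h
          simp only [List.count_cons_self, List.map_cons, List.sum_cons, if_true]
          push_cast
          linarith
        · have hb : (a == σ) = false := by simpa using h
          simp only [List.count_cons, hb, List.map_cons, List.sum_cons, if_neg h]
          simpa using this
  have hle : LP (I ++ [1]) - 1 ≤ LP I := by
    apply le_csInf hne
    rintro v ⟨z, hz, rfl⟩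
    have h1 := lp_le (fracSol_pad hz)
    have h2 : (((z ++ [(({1} : Multiset ℚ), (1 : ℚ))]).map Prod.snd).sum : ℚ)
        = (z.map Prod.snd).sum + 1 := by simp
    rw [h2, Rat.cast_add, Rat.cast_one] at h1
    linarith
  linarith

/-- Padding by `t` items of size `1`: the instance stays an instance, `OPT` grows by exactly `t`
and the gap `OPT - LP` does not shrink. -/
theorem gap_pad {I : List ℚ} (hI : IsInstance I) {c : ℝ} (hc : c ≤ (OPT I : ℝ) - LP I) (t : ℕ) :
    IsInstance (I ++ List.replicate t 1) ∧ OPT (I ++ List.replicate t 1) = OPT I + t ∧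
      c ≤ (OPT (I ++ List.replicate t 1) : ℝ) - LP (I ++ List.replicate t 1) := by
  induction t with
  | zero => simpa using ⟨hI, hc⟩
  | succ t ih =>
    obtain ⟨h1, h2, h3⟩ := ih
    have e : I ++ List.replicate (t + 1) 1 = (I ++ List.replicate t 1) ++ [1] := by
      rw [List.replicate_succ', List.append_assoc]
    rw [e]
    refine ⟨isInstance_pad h1, ?_, ?_⟩
    · rw [opt_pad h1, h2]
      ring
    · have h4 := lp_pad h1
      rw [opt_pad h1]
      push_cast
      linarith

/-- From one instance with gap at least `c`, instances with gap at least `c` for every value of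
`OPT` from `OPT I` on. -/
theorem gap_all_opt {I : List ℚ} (hI : IsInstance I) {c : ℝ} (hc : c ≤ (OPT I : ℝ) - LP I)
    (k : ℕ) (hk : OPT I ≤ k) :
    ∃ J : List ℚ, IsInstance J ∧ OPT J = k ∧ c ≤ (OPT J : ℝ) - LP J := by
  obtain ⟨h1, h2, h3⟩ := gap_pad hI hc (k - OPT I)
  exact ⟨_, h1, by omega, h3⟩

end Vale.Agent.Lib.P302.helper4
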